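import Vale.Agent.H40.Res.IsingPhi

/-!
TASK RES-EID4.  Right side algebra of the weighted resolvent identity (pointwise in `g`,
checked numerically with the literal definitions):
`∑_{p : p.1 < p.2} (√n)⁻¹ dphiP p
   = (1/n) [ ω (tG2M + n s tGM - 2 dGM) + β ω (n tGM - tGM2) + 2 β ω' (four - W tGM2) ]`,
`s = stieltjes n ζ g`, `ω = wgt`, `ω' = dwgt`, `W = corrSq (gibbs n β g)`.

Black boxes: `resolvent_symm` (stub), and from landed files `corr_swap` (`M` symmetric),
`corr_diag` (`M_aa = 1`), `gibbs_sum`, the definitions `corr`, `corr4`, `dW`, `corrSq`,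
`spin_mul_self` (`s² = 1`).  Needs `n ≥ 1` for ` (√n)⁻¹ * (√n)⁻¹ = 1/n`.

Sketch.  ` (√n)⁻¹ dphiP p = (1/n) * [√n-free expression]`: every term of `dphiP` carries one
factor ` (√n)⁻¹` (also `dW`), so after multiplying by ` (√n)⁻¹` the claim is `1/n` times a sum
over pairs `p.1 < p.2` of an expression symmetric under exchanging the two indices; the sum over
`p.1 < p.2` of a symmetric expression plus its swap is the sum over all ordered pairs `i ≠ k`
(`sum_pairs_split`-type lemma of `SKGauss.lean`, or split `Fin n × Fin n` by `<, =, >`).  With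
` (i,k)` ranging over ordered pairs `i ≠ k` the three groups are:
(a) `ω ∑_{i≠k,j} (G_ji G_ki + G_jk G_ii) M_kj = ω (tG2M + (∑_a G_aa) tGM - 2 dGM)`:
    the full sums over all `i,k` are `tr(G² M) = tG2M` and ` (tr G)(tr G M)`; the terms `i = k`
    of both are `∑_i G_ii ∑_j G_ji M_ij = dGM`; and `∑_a G_aa = n s`.
(b) `β ω ∑_{i≠k,j} G_ji (⟨x_k x_j x_i x_k⟩ - M_ik M_kj)`, where
    `⟨x_k x_j x_i x_k⟩ = corr4 (i,k) (k,j) = M_ij` (`x_k² = 1`), so the sum is
    `∑_{i≠k,j} G_ji M_ij - ∑_{i≠k,j} G_ji M_ik M_kj = (n-1) tGM - (tGM2 - tGM) = n tGM - tGM2`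
    (`M_ii = 1`).
(c) `ω' ∑_{i≠k} (∑_j G_ji M_kj) * 2 β (∑_{a,b} M_ab corr4 (i,k) (a,b) - W M_ik)`:
    `∑_{i≠k} (MG)_ki x_i x_k = xᵀ M G x - tr(M G)` and `∑_{i≠k} (MG)_ki M_ik = tGM2 - tr(M G)`,
    `∑_{a,b} M_ab ⟨x_a x_b ·⟩ = ⟨(xᵀ M x) ·⟩`, `⟨xᵀ M x⟩ = W`; the two `tr(M G)` terms cancel
    and the result is `2 β ω' (four - W tGM2)`.
Suggestion: prove (a), (b), (c) as three separate lemmas (tags `eid4a_`, `eid4b_`, `eid4c_`).
-/

namespace Vale.Agent.H40.SK

open MeasureTheory ProbabilityTheory Real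

variable {n : ℕ}

/-- Sum over `i < k` of both orientations = full sum minus the diagonal. -/
lemma eid4_pairs (A : Fin n → Fin n → ℂ) :
    ∑ p : Fin n × Fin n, (if p.1 < p.2 then A p.1 p.2 + A p.2 p.1 else 0)
      = ∑ i, ∑ k, A i k - ∑ i, A i i := by
  have h1 : ∀ p : Fin n × Fin n, A p.1 p.2 = (if p.1 < p.2 then A p.1 p.2 else 0)
      + (if p.1 = p.2 then A p.1 p.2 else 0) + (if p.2 < p.1 then A p.1 p.2 else 0) := by
    intro p
    rcases lt_trichotomy p.1 p.2 with h | h | h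
    · simp [h, h.ne, h.not_gt]
    · simp [h]
    · simp [h, h.ne', h.not_gt]
  have h2 : ∑ p : Fin n × Fin n, (if p.2 < p.1 then A p.1 p.2 else 0)
      = ∑ p : Fin n × Fin n, (if p.1 < p.2 then A p.2 p.1 else 0) := by
    rw [Fintype.sum_prod_type, Fintype.sum_prod_type, Finset.sum_comm]
  have h3 : ∑ p : Fin n × Fin n, (if p.1 = p.2 then A p.1 p.2 else 0) = ∑ i, A i i := by
    rw [Fintype.sum_prod_type]
    refine Finset.sum_congr rfl fun i _ => ?_
    simp
  have h4 : ∑ i, ∑ k, A i k = ∑ p : Fin n × Fin n, A p.1 p.2 := by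
    rw [Fintype.sum_prod_type]
  have h5 : ∑ p : Fin n × Fin n, (if p.1 < p.2 then A p.1 p.2 + A p.2 p.1 else 0)
      = ∑ p : Fin n × Fin n, (if p.1 < p.2 then A p.1 p.2 else 0)
        + ∑ p : Fin n × Fin n, (if p.1 < p.2 then A p.2 p.1 else 0) := by
    rw [← Finset.sum_add_distrib]
    refine Finset.sum_congr rfl fun p _ => ?_
    split_ifs <;> simp
  rw [h4, h5]
  conv_rhs => rw [Finset.sum_congr rfl fun p _ => h1 p]
  rw [Finset.sum_add_distrib, Finset.sum_add_distrib, h2, h3]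
  ring

/-- Rotation of a triple sum. -/
lemma eid4_rot {α β γ : Type*} [Fintype α] [Fintype β] [Fintype γ] (f : α → β → γ → ℂ) :
    ∑ i, ∑ k, ∑ j, f i k j = ∑ j, ∑ i, ∑ k, f i k j := by
  calc ∑ i, ∑ k, ∑ j, f i k j = ∑ i, ∑ j, ∑ k, f i k j :=
        Finset.sum_congr rfl fun i _ => Finset.sum_comm
    _ = ∑ j, ∑ i, ∑ k, f i k j := Finset.sum_comm

/-- Group (a), full sum. -/
lemma eid4a_full (G M : Fin n → Fin n → ℂ) (hG : ∀ a b, G a b = G b a) :
    ∑ i, ∑ k, ∑ j, (G j i * G k i + G j k * G i i) * M k j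
      = ∑ a, ∑ b, ∑ c, G a b * G b c * M c a + (∑ a, G a a) * ∑ a, ∑ b, G a b * M b a := by
  have h1 : ∑ i, ∑ k, ∑ j, G j i * G k i * M k j = ∑ a, ∑ b, ∑ c, G a b * G b c * M c a := by
    rw [eid4_rot]
    refine Finset.sum_congr rfl fun j _ => Finset.sum_congr rfl fun i _ =>
      Finset.sum_congr rfl fun k _ => ?_
    rw [hG k i]
  have h2 : ∑ i, ∑ k, ∑ j, G j k * G i i * M k j = (∑ a, G a a) * ∑ a, ∑ b, G a b * M b a := by
    rw [Finset.sum_mul]
    refine Finset.sum_congr rfl fun i _ => ?_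
    rw [Finset.sum_comm, Finset.mul_sum]
    refine Finset.sum_congr rfl fun j _ => ?_
    rw [Finset.mul_sum]
    refine Finset.sum_congr rfl fun k _ => ?_
    ring
  rw [← h1, ← h2, ← Finset.sum_add_distrib]
  refine Finset.sum_congr rfl fun i _ => ?_
  rw [← Finset.sum_add_distrib]
  refine Finset.sum_congr rfl fun k _ => ?_
  rw [← Finset.sum_add_distrib]
  refine Finset.sum_congr rfl fun j _ => ?_
  ring

/-- Group (a), diagonal. -/
lemma eid4a_diag (G M : Fin n → Fin n → ℂ) (hG : ∀ a b, G a b = G b a)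
    (hM : ∀ a b, M a b = M b a) :
    ∑ i, ∑ j, (G j i * G i i + G j i * G i i) * M i j
      = 2 * ∑ i, G i i * ∑ j, G i j * M j i := by
  rw [Finset.mul_sum]
  refine Finset.sum_congr rfl fun i _ => ?_
  rw [Finset.mul_sum, Finset.mul_sum]
  refine Finset.sum_congr rfl fun j _ => ?_
  rw [hG j i, hM i j]
  ring

/-- Group (b), full sum. -/
lemma eid4b_full (G M : Fin n → Fin n → ℂ) (β : ℂ) :
    ∑ i, ∑ k, ∑ j, G j i * (β * (M i j - M i k * M k j))
      = β * ((n : ℂ) * ∑ a, ∑ b, G a b * M b a - ∑ a, ∑ b, ∑ c, G a b * M b c * M c a) := by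
  have h1 : ∑ i, ∑ _k : Fin n, ∑ j, G j i * M i j = (n : ℂ) * ∑ a, ∑ b, G a b * M b a := by
    simp only [Finset.sum_const, Finset.card_univ, Fintype.card_fin, nsmul_eq_mul]
    rw [← Finset.mul_sum]
    congr 1
    exact Finset.sum_comm
  have h2 : ∑ i, ∑ k, ∑ j, G j i * M i k * M k j = ∑ a, ∑ b, ∑ c, G a b * M b c * M c a :=
    eid4_rot _
  rw [← h1, ← h2]
  simp only [mul_sub, Finset.mul_sum, ← Finset.sum_sub_distrib]
  refine Finset.sum_congr rfl fun i _ => Finset.sum_congr rfl fun k _ =>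
    Finset.sum_congr rfl fun j _ => ?_
  ring


/-- Group (b), diagonal. -/
lemma eid4b_diag (G M : Fin n → Fin n → ℂ) (C4 : Fin n → Fin n → Fin n → Fin n → ℂ) (β : ℂ)
    (hM1 : ∀ i, M i i = 1) (hC1 : ∀ i k j, C4 i k k j = M i j) :
    ∑ i, ∑ j, G j i * (β * (C4 i i i j - M i i * M i j)) = 0 := by
  refine Finset.sum_eq_zero fun i _ => Finset.sum_eq_zero fun j _ => ?_
  rw [hC1, hM1]
  ring

/-- Group (c): the inner sum. -/
lemma eid4c_D {X : Type*} [Fintype X] (M : Fin n → Fin n → ℂ) (μ : X → ℂ) (s : X → Fin n → ℂ)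
    (C4 : Fin n → Fin n → Fin n → Fin n → ℂ)
    (hC : ∀ i k a b, C4 i k a b = ∑ x, μ x * ((s x i * s x k) * (s x a * s x b))) (β : ℂ)
    (i k : Fin n) :
    ∑ a, ∑ b, 2 * M a b * (β * (C4 i k a b - M i k * M a b))
      = 2 * β * (∑ x, μ x * (s x i * s x k) * (∑ a, ∑ b, M a b * s x a * s x b)
          - M i k * ∑ a, ∑ b, M a b ^ 2) := by
  have h1 : ∑ a, ∑ b, M a b * C4 i k a b
      = ∑ x, μ x * (s x i * s x k) * (∑ a, ∑ b, M a b * s x a * s x b) := by
    simp only [hC, Finset.mul_sum]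
    rw [eid4_rot]
    refine Finset.sum_congr rfl fun x _ => Finset.sum_congr rfl fun a _ =>
      Finset.sum_congr rfl fun b _ => ?_
    ring
  have h2 : ∑ a, ∑ b, 2 * M a b * (β * (C4 i k a b - M i k * M a b))
      = 2 * β * (∑ a, ∑ b, M a b * C4 i k a b - M i k * ∑ a, ∑ b, M a b ^ 2) := by
    simp only [mul_sub, Finset.mul_sum, ← Finset.sum_sub_distrib]
    refine Finset.sum_congr rfl fun a _ => Finset.sum_congr rfl fun b _ => ?_
    ring
  rw [h2, h1]

/-- Group (c): the four-spin sum. -/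
lemma eid4c_T1 {X : Type*} [Fintype X] (μ : X → ℂ) (s : X → Fin n → ℂ) (Q : X → ℂ)
    (N : Fin n → Fin n → ℂ) :
    ∑ i, ∑ k, (∑ x, μ x * (s x i * s x k) * Q x) * N k i
      = ∑ x, μ x * Q x * ∑ a, ∑ b, N a b * s x a * s x b := by
  simp only [Finset.sum_mul, Finset.mul_sum]
  rw [eid4_rot]
  refine Finset.sum_congr rfl fun x _ => ?_
  rw [Finset.sum_comm]
  refine Finset.sum_congr rfl fun k _ => Finset.sum_congr rfl fun i _ => ?_
  ring

/-- Linearity of a double sum. -/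
lemma eid4_lin2 (u v : Fin n → Fin n → ℂ) (c d : ℂ) :
    ∑ i, ∑ k, (c * u i k - d * v i k) = c * ∑ i, ∑ k, u i k - d * ∑ i, ∑ k, v i k := by
  simp only [Finset.mul_sum, Finset.sum_sub_distrib]

/-- Group (c), full sum. -/
lemma eid4c_full {X : Type*} [Fintype X] (G M : Fin n → Fin n → ℂ) (μ : X → ℂ)
    (s : X → Fin n → ℂ) (C4 : Fin n → Fin n → Fin n → Fin n → ℂ)
    (hC : ∀ i k a b, C4 i k a b = ∑ x, μ x * ((s x i * s x k) * (s x a * s x b))) (β : ℂ) :
    ∑ i, ∑ k, (∑ a, ∑ b, 2 * M a b * (β * (C4 i k a b - M i k * M a b))) * (∑ j, G j i * M k j)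
      = 2 * β * (∑ x, μ x * (∑ a, ∑ b, M a b * s x a * s x b)
            * (∑ a, ∑ b, (∑ c, M a c * G c b) * s x a * s x b)
          - (∑ a, ∑ b, M a b ^ 2) * ∑ a, ∑ b, ∑ c, G a b * M b c * M c a) := by
  have e : ∀ k i : Fin n, ∑ j, G j i * M k j = ∑ c, M k c * G c i := fun k i =>
    Finset.sum_congr rfl fun j _ => mul_comm _ _
  have hT1 : ∑ i, ∑ k, (∑ x, μ x * (s x i * s x k) * (∑ a, ∑ b, M a b * s x a * s x b))
        * (∑ c, M k c * G c i)
      = ∑ x, μ x * (∑ a, ∑ b, M a b * s x a * s x b)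
          * (∑ a, ∑ b, (∑ c, M a c * G c b) * s x a * s x b) :=
    eid4c_T1 μ s (fun x => ∑ a, ∑ b, M a b * s x a * s x b) (fun a b => ∑ c, M a c * G c b)
  have hT2 : ∑ i, ∑ k, M i k * (∑ c, M k c * G c i)
      = ∑ a, ∑ b, ∑ c, G a b * M b c * M c a := by
    simp only [Finset.mul_sum]
    rw [eid4_rot]
    refine Finset.sum_congr rfl fun j _ => Finset.sum_congr rfl fun i _ =>
      Finset.sum_congr rfl fun k _ => ?_
    ring
  have step : ∀ i k : Fin n,
      (∑ a, ∑ b, 2 * M a b * (β * (C4 i k a b - M i k * M a b))) * (∑ j, G j i * M k j)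
        = (2 * β) * ((∑ x, μ x * (s x i * s x k) * (∑ a, ∑ b, M a b * s x a * s x b))
            * (∑ c, M k c * G c i))
          - (2 * β * ∑ a, ∑ b, M a b ^ 2) * (M i k * (∑ c, M k c * G c i)) := by
    intro i k
    rw [eid4c_D M μ s C4 hC β i k, e k i]
    ring
  calc ∑ i, ∑ k, (∑ a, ∑ b, 2 * M a b * (β * (C4 i k a b - M i k * M a b)))
          * (∑ j, G j i * M k j)
      = ∑ i, ∑ k, ((2 * β) * ((∑ x, μ x * (s x i * s x k) * (∑ a, ∑ b, M a b * s x a * s x b))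
            * (∑ c, M k c * G c i))
          - (2 * β * ∑ a, ∑ b, M a b ^ 2) * (M i k * (∑ c, M k c * G c i))) :=
        Finset.sum_congr rfl fun i _ => Finset.sum_congr rfl fun k _ => step i k
    _ = (2 * β) * (∑ i, ∑ k, (∑ x, μ x * (s x i * s x k) * (∑ a, ∑ b, M a b * s x a * s x b))
            * (∑ c, M k c * G c i))
          - (2 * β * ∑ a, ∑ b, M a b ^ 2) * ∑ i, ∑ k, M i k * (∑ c, M k c * G c i) :=
        eid4_lin2 _ _ _ _
    _ = _ := by
        rw [hT1, hT2]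
        ring

/-- Group (c), diagonal. -/
lemma eid4c_diag (G M : Fin n → Fin n → ℂ) (C4 : Fin n → Fin n → Fin n → Fin n → ℂ) (β : ℂ)
    (hM1 : ∀ i, M i i = 1) (hC2 : ∀ i a b, C4 i i a b = M a b) :
    ∑ i, (∑ a, ∑ b, 2 * M a b * (β * (C4 i i a b - M i i * M a b))) * (∑ j, G j i * M i j)
      = 0 := by
  refine Finset.sum_eq_zero fun i _ => ?_
  have h : ∑ a, ∑ b, 2 * M a b * (β * (C4 i i a b - M i i * M a b)) = 0 := by
    refine Finset.sum_eq_zero fun a _ => Finset.sum_eq_zero fun b _ => ?_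
    rw [hC2, hM1]
    ring
  rw [h, zero_mul]

/-- One pair: the summand is `r²` times the sum of the two orientations. -/
lemma eid4_point (G M : Fin n → Fin n → ℂ) (C4 : Fin n → Fin n → Fin n → Fin n → ℂ)
    (r ω ω' β : ℂ) (hMs : ∀ a b, M a b = M b a) (hCs : ∀ i k a b, C4 i k a b = C4 k i a b)
    (i k : Fin n) :
    r * (ω' * (r * ∑ a, ∑ b, 2 * M a b * (β * (C4 i k a b - M i k * M a b)))
          * (∑ j, (G j i * M k j + G j k * M i j))
        + ω * ∑ j, (r * (G j i * G k i + G j k * G i i) * M k j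
            + G j i * (β * r * (C4 i k k j - M i k * M k j))
            + r * (G j i * G k k + G j k * G i k) * M i j
            + G j k * (β * r * (C4 i k i j - M i k * M i j))))
      = (r * r) * ((ω' * ((∑ a, ∑ b, 2 * M a b * (β * (C4 i k a b - M i k * M a b)))
              * (∑ j, G j i * M k j))
            + ω * ((∑ j, (G j i * G k i + G j k * G i i) * M k j)
              + ∑ j, G j i * (β * (C4 i k k j - M i k * M k j))))
          + (ω' * ((∑ a, ∑ b, 2 * M a b * (β * (C4 k i a b - M k i * M a b)))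
              * (∑ j, G j k * M i j))
            + ω * ((∑ j, (G j k * G i k + G j i * G k k) * M i j)
              + ∑ j, G j k * (β * (C4 k i i j - M k i * M i j))))) := by
  have hDs : (∑ a, ∑ b, 2 * M a b * (β * (C4 k i a b - M k i * M a b)))
      = ∑ a, ∑ b, 2 * M a b * (β * (C4 i k a b - M i k * M a b)) := by
    refine Finset.sum_congr rfl fun a _ => Finset.sum_congr rfl fun b _ => ?_
    rw [hCs k i, hMs k i]
  have h1 : ∑ j, (G j i * M k j + G j k * M i j)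
      = (∑ j, G j i * M k j) + ∑ j, G j k * M i j := Finset.sum_add_distrib
  have h2 : ∑ j, (r * (G j i * G k i + G j k * G i i) * M k j
            + G j i * (β * r * (C4 i k k j - M i k * M k j))
            + r * (G j i * G k k + G j k * G i k) * M i j
            + G j k * (β * r * (C4 i k i j - M i k * M i j)))
      = r * (((∑ j, (G j i * G k i + G j k * G i i) * M k j)
              + ∑ j, G j i * (β * (C4 i k k j - M i k * M k j)))
          + ((∑ j, (G j k * G i k + G j i * G k k) * M i j)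
              + ∑ j, G j k * (β * (C4 k i i j - M k i * M i j)))) := by
    rw [← Finset.sum_add_distrib, ← Finset.sum_add_distrib, ← Finset.sum_add_distrib,
      Finset.mul_sum]
    refine Finset.sum_congr rfl fun j _ => ?_
    rw [hCs k i, hMs k i]
    ring
  rw [h1, h2, hDs]
  ring

/-- Linearity helpers. -/
lemma eid4_split2 (c d : ℂ) (u v w : Fin n → Fin n → ℂ) :
    ∑ i, ∑ k, (c * u i k + d * (v i k + w i k))
      = c * ∑ i, ∑ k, u i k + d * (∑ i, ∑ k, v i k + ∑ i, ∑ k, w i k) := by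
  simp only [mul_add, Finset.mul_sum, Finset.sum_add_distrib]

lemma eid4_split1 (c d : ℂ) (u v w : Fin n → ℂ) :
    ∑ i, (c * u i + d * (v i + w i)) = c * ∑ i, u i + d * (∑ i, v i + ∑ i, w i) := by
  simp only [mul_add, Finset.mul_sum, Finset.sum_add_distrib]

/-- The identity for abstract symmetric `G`, a probability vector `μ` and spins `s`. -/
lemma eid4_abs {X : Type*} [Fintype X] (G M : Fin n → Fin n → ℂ) (μ : X → ℂ)
    (s : X → Fin n → ℂ) (C4 : Fin n → Fin n → Fin n → Fin n → ℂ) (dw : Fin n → Fin n → ℂ)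
    (r ω ω' β : ℂ) (hr : r * r = (n : ℂ)⁻¹) (hG : ∀ a b, G a b = G b a)
    (hμ : ∑ x, μ x = 1) (hs : ∀ x i, s x i * s x i = 1)
    (hM : ∀ a b, M a b = ∑ x, μ x * (s x a * s x b))
    (hC : ∀ i k a b, C4 i k a b = ∑ x, μ x * ((s x i * s x k) * (s x a * s x b)))
    (hdw : ∀ i k, dw i k = r * ∑ a, ∑ b, 2 * M a b * (β * (C4 i k a b - M i k * M a b))) :
    ∑ p : Fin n × Fin n, (if p.1 < p.2 then
        r * (ω' * dw p.1 p.2 * (∑ j, (G j p.1 * M p.2 j + G j p.2 * M p.1 j))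
          + ω * ∑ j, (r * (G j p.1 * G p.2 p.1 + G j p.2 * G p.1 p.1) * M p.2 j
              + G j p.1 * (β * r * (C4 p.1 p.2 p.2 j - M p.1 p.2 * M p.2 j))
              + r * (G j p.1 * G p.2 p.2 + G j p.2 * G p.1 p.2) * M p.1 j
              + G j p.2 * (β * r * (C4 p.1 p.2 p.1 j - M p.1 p.2 * M p.1 j)))) else 0)
      = (n : ℂ)⁻¹ * (ω * ((∑ a, ∑ b, ∑ c, G a b * G b c * M c a)
              + (∑ a, G a a) * (∑ a, ∑ b, G a b * M b a) - 2 * ∑ i, G i i * ∑ j, G i j * M j i)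
          + β * ω * ((n : ℂ) * (∑ a, ∑ b, G a b * M b a) - ∑ a, ∑ b, ∑ c, G a b * M b c * M c a)
          + 2 * β * ω' * ((∑ x, μ x * (∑ a, ∑ b, M a b * s x a * s x b)
                * (∑ a, ∑ b, (∑ c, M a c * G c b) * s x a * s x b))
              - (∑ a, ∑ b, M a b ^ 2) * ∑ a, ∑ b, ∑ c, G a b * M b c * M c a)) := by
  have hMs : ∀ a b, M a b = M b a := by
    intro a b
    rw [hM, hM]
    exact Finset.sum_congr rfl fun x _ => by ring
  have hCs : ∀ i k a b, C4 i k a b = C4 k i a b := by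
    intro i k a b
    rw [hC, hC]
    exact Finset.sum_congr rfl fun x _ => by ring
  have hM1 : ∀ i, M i i = 1 := by
    intro i
    rw [hM, ← hμ]
    exact Finset.sum_congr rfl fun x _ => by rw [hs, mul_one]
  have hC1 : ∀ i k j, C4 i k k j = M i j := by
    intro i k j
    rw [hC, hM]
    exact Finset.sum_congr rfl fun x _ => by
      linear_combination (μ x * s x i * s x j) * hs x k
  have hC2 : ∀ i a b, C4 i i a b = M a b := by
    intro i a b
    rw [hC, hM]
    exact Finset.sum_congr rfl fun x _ => by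
      linear_combination (μ x * s x a * s x b) * hs x i
  obtain ⟨A, hA⟩ : ∃ A : Fin n → Fin n → ℂ, ∀ i k, A i k
      = ω' * ((∑ a, ∑ b, 2 * M a b * (β * (C4 i k a b - M i k * M a b)))
              * (∑ j, G j i * M k j))
            + ω * ((∑ j, (G j i * G k i + G j k * G i i) * M k j)
              + ∑ j, G j i * (β * (C4 i k k j - M i k * M k j))) := ⟨_, fun _ _ => rfl⟩
  have hbfull : ∑ i, ∑ k, ∑ j, G j i * (β * (C4 i k k j - M i k * M k j))
      = β * ((n : ℂ) * ∑ a, ∑ b, G a b * M b a - ∑ a, ∑ b, ∑ c, G a b * M b c * M c a) := by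
    simp only [hC1]
    exact eid4b_full G M β
  calc _ = ∑ p : Fin n × Fin n,
          (if p.1 < p.2 then (n : ℂ)⁻¹ * (A p.1 p.2 + A p.2 p.1) else 0) := by
        refine Finset.sum_congr rfl fun p _ => ?_
        split_ifs with h
        · rw [hdw, eid4_point G M C4 r ω ω' β hMs hCs p.1 p.2, hr, ← hA, ← hA]
        · rfl
    _ = (n : ℂ)⁻¹ * ∑ p : Fin n × Fin n, (if p.1 < p.2 then A p.1 p.2 + A p.2 p.1 else 0) := by
        rw [Finset.mul_sum]
        refine Finset.sum_congr rfl fun p _ => ?_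
        split_ifs <;> simp
    _ = (n : ℂ)⁻¹ * (∑ i, ∑ k, A i k - ∑ i, A i i) := by rw [eid4_pairs]
    _ = _ := by
        congr 1
        simp only [hA]
        rw [eid4_split2, eid4_split1, eid4c_full G M μ s C4 hC β, eid4a_full G M hG,
          eid4a_diag G M hG hMs, hbfull, eid4b_diag G M C4 β hM1 hC1,
          eid4c_diag G M C4 β hM1 hC2]
        ring


/-- Right side algebra. -/
lemma sum_dphiP_eq (hn : 1 ≤ n) (ζ : ℂ) (hζ : ζ.im ≠ 0) (β κ θ : ℝ) (g : Fin n × Fin n → ℝ) :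
    ∑ p : Fin n × Fin n, (if p.1 < p.2 then
        (((√(n : ℝ))⁻¹ : ℝ) : ℂ) * dphiP n ζ β κ θ p g else 0)
      = (n : ℂ)⁻¹ * ((wgt n β κ θ g : ℂ)
            * (tG2M n ζ β g + (n : ℂ) * stieltjes n ζ g * tGM n ζ β g - 2 * dGM n ζ β g)
          + (β : ℂ) * (wgt n β κ θ g : ℂ) * ((n : ℂ) * tGM n ζ β g - tGM2 n ζ β g)
          + 2 * (β : ℂ) * (dwgt n β κ θ g : ℂ)
            * (four n ζ β g - (corrSq (gibbs n β g) : ℂ) * tGM2 n ζ β g)) := by
  have hn0 : (n : ℂ) ≠ 0 := by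
    have : n ≠ 0 := by omega
    exact_mod_cast this
  have hr : (((√(n : ℝ))⁻¹ : ℝ) : ℂ) * (((√(n : ℝ))⁻¹ : ℝ) : ℂ) = (n : ℂ)⁻¹ := by
    rw [← Complex.ofReal_mul, ← mul_inv, Real.mul_self_sqrt (Nat.cast_nonneg n)]
    push_cast
    rfl
  have hgibbs : ∑ x, (gibbs n β g x : ℂ) = 1 := by
    rw [← Complex.ofReal_sum, gibbs_sum]
    simp
  have hspin : ∀ (x : Fin n → Bool) (i : Fin n), (spin (x i) : ℂ) * (spin (x i) : ℂ) = 1 := by
    intro x i
    rw [← Complex.ofReal_mul, spin_mul_self]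
    simp
  have hM : ∀ a b : Fin n, (corr (gibbs n β g) (a, b) : ℂ)
      = ∑ x, (gibbs n β g x : ℂ) * ((spin (x a) : ℂ) * (spin (x b) : ℂ)) := by
    intro a b
    unfold corr
    push_cast
    rfl
  have hC : ∀ i k a b : Fin n, (corr4 n β (i, k) (a, b) g : ℂ)
      = ∑ x, (gibbs n β g x : ℂ) * (((spin (x i) : ℂ) * (spin (x k) : ℂ))
          * ((spin (x a) : ℂ) * (spin (x b) : ℂ))) := by
    intro i k a b
    unfold corr4 corrNum4
    rw [Finset.sum_div]
    push_cast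
    refine Finset.sum_congr rfl fun x _ => ?_
    rw [gibbs_eq]
    push_cast
    ring
  have hdw : ∀ i k : Fin n, ((dW n β (i, k) g : ℝ) : ℂ)
      = (((√(n : ℝ))⁻¹ : ℝ) : ℂ) * ∑ a, ∑ b, 2 * (corr (gibbs n β g) (a, b) : ℂ)
          * ((β : ℂ) * ((corr4 n β (i, k) (a, b) g : ℂ)
            - (corr (gibbs n β g) (i, k) : ℂ) * (corr (gibbs n β g) (a, b) : ℂ))) := by
    intro i k
    unfold dW
    rw [Fintype.sum_prod_type, Finset.mul_sum]
    rw [Complex.ofReal_sum]
    refine Finset.sum_congr rfl fun a _ => ?_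
    rw [Finset.mul_sum, Complex.ofReal_sum]
    refine Finset.sum_congr rfl fun b _ => ?_
    simp only [Complex.ofReal_mul, Complex.ofReal_sub, Complex.ofReal_ofNat]
    ring
  have hW : (corrSq (gibbs n β g) : ℂ) = ∑ a, ∑ b, (corr (gibbs n β g) (a, b) : ℂ) ^ 2 := by
    unfold corrSq
    rw [Fintype.sum_prod_type, Complex.ofReal_sum]
    refine Finset.sum_congr rfl fun a _ => ?_
    rw [Complex.ofReal_sum]
    refine Finset.sum_congr rfl fun b _ => ?_
    rw [Complex.ofReal_pow]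
  have hst : (n : ℂ) * stieltjes n ζ g = ∑ a, resolvent n ζ g a a := by
    unfold stieltjes
    rw [← mul_assoc, mul_inv_cancel₀ hn0, one_mul]
  have key := eid4_abs (n := n) (resolvent n ζ g)
    (fun a b => (corr (gibbs n β g) (a, b) : ℂ)) (fun x => (gibbs n β g x : ℂ))
    (fun x i => (spin (x i) : ℂ)) (fun i k a b => (corr4 n β (i, k) (a, b) g : ℂ))
    (fun i k => ((dW n β (i, k) g : ℝ) : ℂ)) (((√(n : ℝ))⁻¹ : ℝ) : ℂ)
    (wgt n β κ θ g : ℂ) (dwgt n β κ θ g : ℂ) (β : ℂ) hr (resolvent_symm ζ hζ g) hgibbs hspin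
    hM hC hdw
  rw [hW, hst]
  unfold tG2M tGM dGM tGM2 four
  refine Eq.trans ?_ key
  refine Finset.sum_congr rfl fun p _ => ?_
  simp only [dphiP, psiP, dpsiP, Complex.ofReal_mul, Complex.ofReal_sub]

end Vale.Agent.H40.SK
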