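import Vale.Agent.H40.Res.IsingDefs

/-!
TASK RES-EID1.  The functions `Φ_p` of the weighted resolvent identity and their derivative in
the coupling `g p`.

Notation: `M_ab = corr (gibbs n β g) (a, b)`, `G = resolvent n ζ g`, `ω = wgt n β κ θ g`.
For a pair `p` (`p.1 < p.2`):
  `psiP = ∑_j (G_{j,p.1} M_{p.2,j} + G_{j,p.2} M_{p.1,j})`,   `phiP = ω * psiP`.
Derivatives in `g p` (black boxes): `resolvent_hasDerivAt` (stub of `ResolventDeriv.lean`) for the
entries of `G`; `corr_hasDerivAt_gen` (landed, `SKWhp.lean`) for the entries of `M`: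
`∂_p M_q = β (√n)⁻¹ (corr4 n β p q g - M_p M_q)`; `corrSq_hasDerivAt` (landed) for
`W = corrSq (gibbs n β g)`: `∂_p W = dW n β p g`; chain rule for the weight
`t ↦ (W t / n² + κ)^(-θ)` (`HasDerivAt.rpow_const`, base positive because `W ≥ 0` and `κ > 0`):
`∂_p ω = dwgt * dW`.  Real valued functions are cast to `ℂ` (`HasDerivAt.ofReal_comp`).
Then `phiP_hasDerivAt` is the product rule and the sum rule (`HasDerivAt.fun_sum`), followed by
`congr_deriv` with `ring`/`push_cast`.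
-/

namespace Vale.Agent.H40.SK

open MeasureTheory ProbabilityTheory Real

/-- `Ψ_p = ∑_j (G_{j,p.1} M_{p.2,j} + G_{j,p.2} M_{p.1,j})`. -/
noncomputable def psiP (n : ℕ) (ζ : ℂ) (β : ℝ) (p : Fin n × Fin n) (g : Fin n × Fin n → ℝ) : ℂ :=
  ∑ j, (resolvent n ζ g j p.1 * (corr (gibbs n β g) (p.2, j) : ℂ)
    + resolvent n ζ g j p.2 * (corr (gibbs n β g) (p.1, j) : ℂ))

/-- `Φ_p = ω Ψ_p`. -/
noncomputable def phiP (n : ℕ) (ζ : ℂ) (β κ θ : ℝ) (p : Fin n × Fin n)
    (g : Fin n × Fin n → ℝ) : ℂ :=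
  (wgt n β κ θ g : ℂ) * psiP n ζ β p g

/-- The derivative of `Ψ_p` in the coupling `g p`. -/
noncomputable def dpsiP (n : ℕ) (ζ : ℂ) (β : ℝ) (p : Fin n × Fin n)
    (g : Fin n × Fin n → ℝ) : ℂ :=
  ∑ j, ((((√(n : ℝ))⁻¹ : ℝ) : ℂ)
        * (resolvent n ζ g j p.1 * resolvent n ζ g p.2 p.1
          + resolvent n ζ g j p.2 * resolvent n ζ g p.1 p.1) * (corr (gibbs n β g) (p.2, j) : ℂ)
      + resolvent n ζ g j p.1 * ((β * (√(n : ℝ))⁻¹ * (corr4 n β p (p.2, j) g
          - corr (gibbs n β g) p * corr (gibbs n β g) (p.2, j)) : ℝ) : ℂ)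
      + (((√(n : ℝ))⁻¹ : ℝ) : ℂ)
        * (resolvent n ζ g j p.1 * resolvent n ζ g p.2 p.2
          + resolvent n ζ g j p.2 * resolvent n ζ g p.1 p.2) * (corr (gibbs n β g) (p.1, j) : ℂ)
      + resolvent n ζ g j p.2 * ((β * (√(n : ℝ))⁻¹ * (corr4 n β p (p.1, j) g
          - corr (gibbs n β g) p * corr (gibbs n β g) (p.1, j)) : ℝ) : ℂ))

/-- The derivative of `Φ_p` in the coupling `g p`. -/
noncomputable def dphiP (n : ℕ) (ζ : ℂ) (β κ θ : ℝ) (p : Fin n × Fin n)
    (g : Fin n × Fin n → ℝ) : ℂ :=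
  ((dwgt n β κ θ g * dW n β p g : ℝ) : ℂ) * psiP n ζ β p g
    + (wgt n β κ θ g : ℂ) * dpsiP n ζ β p g

variable {n : ℕ}

/-- `Φ_p` is differentiable in the coupling `g p`, with derivative `dphiP`. -/
lemma phiP_hasDerivAt (ζ : ℂ) (hζ : ζ.im ≠ 0) (β κ θ : ℝ) (hκ : 0 < κ) (p : Fin n × Fin n)
    (hp : p.1 < p.2) (g : Fin n × Fin n → ℝ) (u : ℝ) :
    HasDerivAt (fun t : ℝ => phiP n ζ β κ θ p (Function.update g p t))
      (dphiP n ζ β κ θ p (Function.update g p u)) u := by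
  have hbase : ∀ t : ℝ, 0 < corrSq (gibbs n β (Function.update g p t)) / (n : ℝ) ^ 2 + κ := by
    intro t
    have h0 : 0 ≤ corrSq (gibbs n β (Function.update g p t)) := by
      unfold corrSq
      exact Finset.sum_nonneg fun q _ => sq_nonneg _
    have h1 : 0 ≤ corrSq (gibbs n β (Function.update g p t)) / (n : ℝ) ^ 2 :=
      div_nonneg h0 (sq_nonneg _)
    linarith
  have hw : HasDerivAt (fun t : ℝ => wgt n β κ θ (Function.update g p t))
      (dwgt n β κ θ (Function.update g p u) * dW n β p (Function.update g p u)) u := by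
    have h1 := ((corrSq_hasDerivAt β p hp g u).div_const ((n : ℝ) ^ 2)).add_const κ
    have h2 := h1.rpow_const (p := -θ) (Or.inl (hbase u).ne')
    unfold wgt dwgt
    refine h2.congr_deriv ?_
    ring
  have hwc := hw.ofReal_comp
  have hpsi : HasDerivAt (fun t : ℝ => psiP n ζ β p (Function.update g p t))
      (dpsiP n ζ β p (Function.update g p u)) u := by
    unfold psiP dpsiP
    refine HasDerivAt.fun_sum (fun j _ => ?_)
    have hG1 := resolvent_hasDerivAt ζ hζ p hp g u j p.1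
    have hG2 := resolvent_hasDerivAt ζ hζ p hp g u j p.2
    have hM1 := (corr_hasDerivAt_gen β p hp (p.2, j) g u).ofReal_comp
    have hM2 := (corr_hasDerivAt_gen β p hp (p.1, j) g u).ofReal_comp
    exact ((hG1.mul hM1).add (hG2.mul hM2)).congr_deriv (by ring)
  unfold phiP dphiP
  exact hwc.mul hpsi

end Vale.Agent.H40.SK
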