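import Vale.Agent.H40.Res.IsingPhi

/-!
TASK RES-EID2.  Continuity and boundedness of `Φ_p` and of its derivative, and Gaussian
integration by parts for `Φ_p`.

Black boxes: `phiP_hasDerivAt` (stub of `IsingPhi.lean`), `stein_pi_complex` (`SteinC.lean`),
`continuous_resolvent`, `resolvent_entry_le` (stubs), and from landed files `continuous_corr`,
`continuous_corr4`, `continuous_corrSq`, `continuous_dW`, `abs_corr_gibbs_le` (`|M_q| ≤ 1`),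
`abs_corr4_le`, `abs_dW_le` (a bound for `|dW|` depending only on `n`, `β`), `corrSq_le`,
nonnegativity of `corrSq` (sum of squares).

Sketch.  `wgt` and `dwgt` are continuous in `g` (`Real.continuous_rpow_const`-type lemmas or
`Continuous.rpow_const`; the base `W/n² + κ` is at least `κ > 0`) and bounded:
`0 < wgt ≤ κ^(-θ)` (`θ ≥ 0`), `|dwgt| ≤ θ κ^(-θ-1) / n²`.  Every resolvent entry is bounded by
`1/|Im ζ|`, every correlation by `1`.  Hence `phiP` and `dphiP` are continuous and bounded by a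
constant depending on `n, ζ, β, κ, θ` only (no need for a sharp constant: sums of products of
bounded quantities; an existential statement is all that is asked).  Then `stein_phiP` is
`stein_pi_complex` with `F = phiP`, `F' = dphiP` and `hd = phiP_hasDerivAt`.
-/

namespace Vale.Agent.H40.SK

open MeasureTheory ProbabilityTheory Real

variable {n : ℕ}

/-- The base `W/n² + κ` of the weight is at least `κ`. -/
lemma eid2_base_ge (β κ : ℝ) (g : Fin n × Fin n → ℝ) :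
    κ ≤ corrSq (gibbs n β g) / (n : ℝ) ^ 2 + κ := by
  have h1 : 0 ≤ corrSq (gibbs n β g) := by
    unfold corrSq
    exact Finset.sum_nonneg (fun p _ => sq_nonneg _)
  have h2 : 0 ≤ corrSq (gibbs n β g) / (n : ℝ) ^ 2 := div_nonneg h1 (sq_nonneg _)
  linarith

lemma eid2_base_pos (β κ : ℝ) (hκ : 0 < κ) (g : Fin n × Fin n → ℝ) :
    0 < corrSq (gibbs n β g) / (n : ℝ) ^ 2 + κ :=
  lt_of_lt_of_le hκ (eid2_base_ge β κ g)

lemma eid2_continuous_base (β κ : ℝ) :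
    Continuous (fun g : Fin n × Fin n → ℝ => corrSq (gibbs n β g) / (n : ℝ) ^ 2 + κ) :=
  ((continuous_corrSq β).div_const _).add continuous_const

lemma continuous_wgt (β κ θ : ℝ) (hκ : 0 < κ) :
    Continuous (fun g : Fin n × Fin n → ℝ => wgt n β κ θ g) := by
  unfold wgt
  exact (eid2_continuous_base β κ).rpow_const (fun g => Or.inl (eid2_base_pos β κ hκ g).ne')

lemma continuous_dwgt (β κ θ : ℝ) (hκ : 0 < κ) :
    Continuous (fun g : Fin n × Fin n → ℝ => dwgt n β κ θ g) := by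
  unfold dwgt
  exact (continuous_const.mul ((eid2_continuous_base β κ).rpow_const
    (fun g => Or.inl (eid2_base_pos β κ hκ g).ne'))).div_const _

lemma wgt_pos (β κ θ : ℝ) (hκ : 0 < κ) (g : Fin n × Fin n → ℝ) : 0 < wgt n β κ θ g := by
  unfold wgt
  exact Real.rpow_pos_of_pos (eid2_base_pos β κ hκ g) _

lemma wgt_le (β κ θ : ℝ) (hκ : 0 < κ) (hθ : 0 ≤ θ) (g : Fin n × Fin n → ℝ) :
    wgt n β κ θ g ≤ κ ^ (-θ) := by
  unfold wgt
  exact Real.rpow_le_rpow_of_nonpos hκ (eid2_base_ge β κ g) (by linarith)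

/-- Bound for the derivative of the weight. -/
lemma eid2_abs_dwgt_le (β κ θ : ℝ) (hκ : 0 < κ) (hθ : 0 ≤ θ) (g : Fin n × Fin n → ℝ) :
    |dwgt n β κ θ g| ≤ θ * κ ^ (-θ - 1) / (n : ℝ) ^ 2 := by
  unfold dwgt
  have h1 : (corrSq (gibbs n β g) / (n : ℝ) ^ 2 + κ) ^ (-θ - 1) ≤ κ ^ (-θ - 1) :=
    Real.rpow_le_rpow_of_nonpos hκ (eid2_base_ge β κ g) (by linarith)
  have h0 : 0 ≤ (corrSq (gibbs n β g) / (n : ℝ) ^ 2 + κ) ^ (-θ - 1) :=
    (Real.rpow_pos_of_pos (eid2_base_pos β κ hκ g) _).le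
  have hn : (0 : ℝ) ≤ (n : ℝ) ^ 2 := sq_nonneg _
  rw [abs_div, abs_mul, abs_neg, abs_of_nonneg hθ, abs_of_nonneg h0, abs_of_nonneg hn]
  exact div_le_div_of_nonneg_right (mul_le_mul_of_nonneg_left h1 hθ) hn

lemma eid2_cont_corrC (β : ℝ) (q : Fin n × Fin n) :
    Continuous (fun g : Fin n × Fin n → ℝ => ((corr (gibbs n β g) q : ℝ) : ℂ)) :=
  Complex.continuous_ofReal.comp (continuous_corr β q)

lemma eid2_cont_termC (β : ℝ) (p q : Fin n × Fin n) :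
    Continuous (fun g : Fin n × Fin n → ℝ =>
      ((β * (√(n : ℝ))⁻¹ * (corr4 n β p q g
        - corr (gibbs n β g) p * corr (gibbs n β g) q) : ℝ) : ℂ)) :=
  Complex.continuous_ofReal.comp
    (continuous_const.mul ((continuous_corr4 β p q).sub
      ((continuous_corr β p).mul (continuous_corr β q))))

lemma eid2_cont_psiP (ζ : ℂ) (hζ : ζ.im ≠ 0) (β : ℝ) (p : Fin n × Fin n) :
    Continuous (fun g : Fin n × Fin n → ℝ => psiP n ζ β p g) := by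
  unfold psiP
  refine continuous_finsetSum _ (fun j _ => ?_)
  exact ((continuous_resolvent ζ hζ j p.1).mul (eid2_cont_corrC β (p.2, j))).add
    ((continuous_resolvent ζ hζ j p.2).mul (eid2_cont_corrC β (p.1, j)))

lemma eid2_cont_dpsiP (ζ : ℂ) (hζ : ζ.im ≠ 0) (β : ℝ) (p : Fin n × Fin n) :
    Continuous (fun g : Fin n × Fin n → ℝ => dpsiP n ζ β p g) := by
  unfold dpsiP
  refine continuous_finsetSum _ (fun j _ => ?_)
  have hG := continuous_resolvent (n := n) ζ hζ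
  exact ((((continuous_const.mul (((hG j p.1).mul (hG p.2 p.1)).add
      ((hG j p.2).mul (hG p.1 p.1)))).mul (eid2_cont_corrC β (p.2, j))).add
    ((hG j p.1).mul (eid2_cont_termC β p (p.2, j)))).add
    ((continuous_const.mul (((hG j p.1).mul (hG p.2 p.2)).add
      ((hG j p.2).mul (hG p.1 p.2)))).mul (eid2_cont_corrC β (p.1, j)))).add
    ((hG j p.2).mul (eid2_cont_termC β p (p.1, j)))

lemma continuous_phiP (ζ : ℂ) (hζ : ζ.im ≠ 0) (β κ θ : ℝ) (hκ : 0 < κ) (p : Fin n × Fin n) :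
    Continuous (fun g : Fin n × Fin n → ℝ => phiP n ζ β κ θ p g) := by
  unfold phiP
  exact (Complex.continuous_ofReal.comp (continuous_wgt β κ θ hκ)).mul (eid2_cont_psiP ζ hζ β p)

lemma continuous_dphiP (ζ : ℂ) (hζ : ζ.im ≠ 0) (β κ θ : ℝ) (hκ : 0 < κ) (p : Fin n × Fin n) :
    Continuous (fun g : Fin n × Fin n → ℝ => dphiP n ζ β κ θ p g) := by
  unfold dphiP
  exact ((Complex.continuous_ofReal.comp
      ((continuous_dwgt β κ θ hκ).mul (continuous_dW β p))).mul (eid2_cont_psiP ζ hζ β p)).add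
    ((Complex.continuous_ofReal.comp (continuous_wgt β κ θ hκ)).mul (eid2_cont_dpsiP ζ hζ β p))

lemma eid2_norm_mul_le {a b : ℂ} {x y : ℝ} (ha : ‖a‖ ≤ x) (hb : ‖b‖ ≤ y) (hx : 0 ≤ x) :
    ‖a * b‖ ≤ x * y := by
  rw [norm_mul]
  exact mul_le_mul ha hb (norm_nonneg _) hx

lemma eid2_norm_add_le {a b : ℂ} {x y : ℝ} (ha : ‖a‖ ≤ x) (hb : ‖b‖ ≤ y) :
    ‖a + b‖ ≤ x + y :=
  (norm_add_le a b).trans (add_le_add ha hb)

lemma eid2_norm_sum_le (f : Fin n → ℂ) (c : ℝ) (h : ∀ j, ‖f j‖ ≤ c) :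
    ‖∑ j, f j‖ ≤ (n : ℝ) * c := by
  refine (norm_sum_le _ _).trans ?_
  have := Finset.sum_le_card_nsmul (Finset.univ : Finset (Fin n)) (fun j => ‖f j‖) c
    (fun j _ => h j)
  simpa using this

lemma eid2_norm_corrC (β : ℝ) (q : Fin n × Fin n) (g : Fin n × Fin n → ℝ) :
    ‖((corr (gibbs n β g) q : ℝ) : ℂ)‖ ≤ 1 := by
  rw [Complex.norm_real, Real.norm_eq_abs]
  exact abs_corr_gibbs_le β q g

lemma eid2_norm_termC (β : ℝ) (p q : Fin n × Fin n) (g : Fin n × Fin n → ℝ) :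
    ‖((β * (√(n : ℝ))⁻¹ * (corr4 n β p q g
        - corr (gibbs n β g) p * corr (gibbs n β g) q) : ℝ) : ℂ)‖
      ≤ |β| * (√(n : ℝ))⁻¹ * 2 := by
  have hs : 0 ≤ (√(n : ℝ))⁻¹ := inv_nonneg.2 (Real.sqrt_nonneg _)
  rw [Complex.norm_real, Real.norm_eq_abs, abs_mul, abs_mul, abs_of_nonneg hs]
  have h1 : |corr4 n β p q g - corr (gibbs n β g) p * corr (gibbs n β g) q| ≤ 2 := by
    have a1 := abs_corr4_le β p q g
    have a2 := abs_corr_gibbs_le β p g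
    have a3 := abs_corr_gibbs_le β q g
    have a4 : |corr (gibbs n β g) p * corr (gibbs n β g) q| ≤ 1 := by
      rw [abs_mul]
      exact mul_le_one₀ a2 (abs_nonneg _) a3
    have a5 := abs_sub (corr4 n β p q g) (corr (gibbs n β g) p * corr (gibbs n β g) q)
    linarith
  exact mul_le_mul_of_nonneg_left h1 (mul_nonneg (abs_nonneg _) hs)

/-- Bound for `Ψ_p`. -/
lemma eid2_norm_psiP_le (ζ : ℂ) (hζ : ζ.im ≠ 0) (β : ℝ) (p : Fin n × Fin n)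
    (g : Fin n × Fin n → ℝ) :
    ‖psiP n ζ β p g‖ ≤ (n : ℝ) * (1 / |ζ.im| * 1 + 1 / |ζ.im| * 1) := by
  unfold psiP
  have hB : (0 : ℝ) ≤ 1 / |ζ.im| := by positivity
  refine eid2_norm_sum_le _ _ (fun j => ?_)
  exact eid2_norm_add_le
    (eid2_norm_mul_le (resolvent_entry_le ζ hζ g j p.1) (eid2_norm_corrC β (p.2, j) g) hB)
    (eid2_norm_mul_le (resolvent_entry_le ζ hζ g j p.2) (eid2_norm_corrC β (p.1, j) g) hB)

/-- Bound for the derivative of `Ψ_p`. -/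
lemma eid2_norm_dpsiP_le (ζ : ℂ) (hζ : ζ.im ≠ 0) (β : ℝ) (p : Fin n × Fin n)
    (g : Fin n × Fin n → ℝ) :
    ‖dpsiP n ζ β p g‖ ≤ (n : ℝ) *
      ((√(n : ℝ))⁻¹ * (1 / |ζ.im| * (1 / |ζ.im|) + 1 / |ζ.im| * (1 / |ζ.im|)) * 1
        + 1 / |ζ.im| * (|β| * (√(n : ℝ))⁻¹ * 2)
        + (√(n : ℝ))⁻¹ * (1 / |ζ.im| * (1 / |ζ.im|) + 1 / |ζ.im| * (1 / |ζ.im|)) * 1
        + 1 / |ζ.im| * (|β| * (√(n : ℝ))⁻¹ * 2)) := by
  unfold dpsiP
  have hB : (0 : ℝ) ≤ 1 / |ζ.im| := by positivity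
  have hs : 0 ≤ (√(n : ℝ))⁻¹ := inv_nonneg.2 (Real.sqrt_nonneg _)
  have hsn : ‖(((√(n : ℝ))⁻¹ : ℝ) : ℂ)‖ ≤ (√(n : ℝ))⁻¹ := by
    rw [Complex.norm_real, Real.norm_eq_abs, abs_of_nonneg hs]
  have hG := fun a b => resolvent_entry_le ζ hζ g a b
  have hGG : ∀ a b c d e f h k : Fin n,
      ‖resolvent n ζ g a b * resolvent n ζ g c d + resolvent n ζ g e f * resolvent n ζ g h k‖
        ≤ 1 / |ζ.im| * (1 / |ζ.im|) + 1 / |ζ.im| * (1 / |ζ.im|) :=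
    fun a b c d e f h k => eid2_norm_add_le (eid2_norm_mul_le (hG a b) (hG c d) hB)
      (eid2_norm_mul_le (hG e f) (hG h k) hB)
  have hBB : (0 : ℝ) ≤ (√(n : ℝ))⁻¹ * (1 / |ζ.im| * (1 / |ζ.im|) + 1 / |ζ.im| * (1 / |ζ.im|)) := by
    positivity
  refine eid2_norm_sum_le _ _ (fun j => ?_)
  exact eid2_norm_add_le (eid2_norm_add_le (eid2_norm_add_le
      (eid2_norm_mul_le (eid2_norm_mul_le hsn (hGG _ _ _ _ _ _ _ _) hs)
        (eid2_norm_corrC β (p.2, j) g) hBB)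
      (eid2_norm_mul_le (hG j p.1) (eid2_norm_termC β p (p.2, j) g) hB))
      (eid2_norm_mul_le (eid2_norm_mul_le hsn (hGG _ _ _ _ _ _ _ _) hs)
        (eid2_norm_corrC β (p.1, j) g) hBB))
      (eid2_norm_mul_le (hG j p.2) (eid2_norm_termC β p (p.1, j) g) hB)

lemma bounded_phiP (ζ : ℂ) (hζ : ζ.im ≠ 0) (β κ θ : ℝ) (hκ : 0 < κ) (hθ : 0 ≤ θ)
    (p : Fin n × Fin n) :
    ∃ C : ℝ, ∀ g : Fin n × Fin n → ℝ, ‖phiP n ζ β κ θ p g‖ ≤ C ∧ ‖dphiP n ζ β κ θ p g‖ ≤ C := by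
  have hB : (0 : ℝ) ≤ 1 / |ζ.im| := by positivity
  have hs : 0 ≤ (√(n : ℝ))⁻¹ := inv_nonneg.2 (Real.sqrt_nonneg _)
  have hw0 : 0 ≤ κ ^ (-θ) := (Real.rpow_pos_of_pos hκ _).le
  have hd0 : 0 ≤ θ * κ ^ (-θ - 1) / (n : ℝ) ^ 2 :=
    div_nonneg (mul_nonneg hθ (Real.rpow_pos_of_pos hκ _).le) (sq_nonneg _)
  have hD0 : 0 ≤ 4 * (n : ℝ) ^ 2 * (|β| * (√(n : ℝ))⁻¹) := by positivity
  set P0 : ℝ := (n : ℝ) * (1 / |ζ.im| * 1 + 1 / |ζ.im| * 1) with hP0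
  set Q0 : ℝ := (n : ℝ) *
      ((√(n : ℝ))⁻¹ * (1 / |ζ.im| * (1 / |ζ.im|) + 1 / |ζ.im| * (1 / |ζ.im|)) * 1
        + 1 / |ζ.im| * (|β| * (√(n : ℝ))⁻¹ * 2)
        + (√(n : ℝ))⁻¹ * (1 / |ζ.im| * (1 / |ζ.im|) + 1 / |ζ.im| * (1 / |ζ.im|)) * 1
        + 1 / |ζ.im| * (|β| * (√(n : ℝ))⁻¹ * 2)) with hQ0
  have hP0nn : 0 ≤ P0 := by rw [hP0]; positivity
  have hQ0nn : 0 ≤ Q0 := by rw [hQ0]; positivity
  have hwn : ∀ g : Fin n × Fin n → ℝ, ‖((wgt n β κ θ g : ℝ) : ℂ)‖ ≤ κ ^ (-θ) := by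
    intro g
    rw [Complex.norm_real, Real.norm_eq_abs, abs_of_pos (wgt_pos β κ θ hκ g)]
    exact wgt_le β κ θ hκ hθ g
  have hdn : ∀ g : Fin n × Fin n → ℝ, ‖((dwgt n β κ θ g * dW n β p g : ℝ) : ℂ)‖
      ≤ θ * κ ^ (-θ - 1) / (n : ℝ) ^ 2 * (4 * (n : ℝ) ^ 2 * (|β| * (√(n : ℝ))⁻¹)) := by
    intro g
    rw [Complex.norm_real, Real.norm_eq_abs, abs_mul]
    exact mul_le_mul (eid2_abs_dwgt_le β κ θ hκ hθ g) (abs_dW_le β p g) (abs_nonneg _) hd0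
  have h1 : ∀ g : Fin n × Fin n → ℝ, ‖phiP n ζ β κ θ p g‖ ≤ κ ^ (-θ) * P0 := by
    intro g
    unfold phiP
    exact eid2_norm_mul_le (hwn g) (eid2_norm_psiP_le ζ hζ β p g) hw0
  have h2 : ∀ g : Fin n × Fin n → ℝ, ‖dphiP n ζ β κ θ p g‖
      ≤ θ * κ ^ (-θ - 1) / (n : ℝ) ^ 2 * (4 * (n : ℝ) ^ 2 * (|β| * (√(n : ℝ))⁻¹)) * P0
        + κ ^ (-θ) * Q0 := by
    intro g
    unfold dphiP
    exact eid2_norm_add_le
      (eid2_norm_mul_le (hdn g) (eid2_norm_psiP_le ζ hζ β p g) (mul_nonneg hd0 hD0))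
      (eid2_norm_mul_le (hwn g) (eid2_norm_dpsiP_le ζ hζ β p g) hw0)
  have hA : 0 ≤ κ ^ (-θ) * P0 := mul_nonneg hw0 hP0nn
  have hBd : 0 ≤ θ * κ ^ (-θ - 1) / (n : ℝ) ^ 2 * (4 * (n : ℝ) ^ 2 * (|β| * (√(n : ℝ))⁻¹)) * P0
      + κ ^ (-θ) * Q0 :=
    add_nonneg (mul_nonneg (mul_nonneg hd0 hD0) hP0nn) (mul_nonneg hw0 hQ0nn)
  refine ⟨κ ^ (-θ) * P0
    + (θ * κ ^ (-θ - 1) / (n : ℝ) ^ 2 * (4 * (n : ℝ) ^ 2 * (|β| * (√(n : ℝ))⁻¹)) * P0
        + κ ^ (-θ) * Q0), fun g => ⟨?_, ?_⟩⟩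
  · exact (h1 g).trans (le_add_of_nonneg_right hBd)
  · exact (h2 g).trans (le_add_of_nonneg_left hA)

/-- Gaussian integration by parts for `Φ_p`. -/
lemma stein_phiP (ζ : ℂ) (hζ : ζ.im ≠ 0) (β κ θ : ℝ) (hκ : 0 < κ) (hθ : 0 ≤ θ)
    (p : Fin n × Fin n) (hp : p.1 < p.2) :
    ∫ g, (g p : ℂ) * phiP n ζ β κ θ p g ∂(stdGauss (Fin n × Fin n))
      = ∫ g, dphiP n ζ β κ θ p g ∂(stdGauss (Fin n × Fin n)) := by
  obtain ⟨C, hC⟩ := bounded_phiP ζ hζ β κ θ hκ hθ p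
  exact stein_pi_complex p (phiP n ζ β κ θ p) (dphiP n ζ β κ θ p)
    (continuous_phiP ζ hζ β κ θ hκ p).measurable (continuous_dphiP ζ hζ β κ θ hκ p).measurable
    C (fun g => (hC g).1) (fun g => (hC g).2)
    (fun g u => phiP_hasDerivAt ζ hζ β κ θ hκ p hp g u)

end Vale.Agent.H40.SK
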